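import Mathlib
import Vale.Agent.P150.Defs
import Vale.Agent.P150.H185.MainAT
import Vale.Agent.P150.H185.CritAll
import Vale.Agent.P150.H185.CritPowMain

open Filter Topology

namespace Vale.Agent.Results.P150.FullCritical

open Vale.Agent.P150

/-- SK heat-bath dynamics, w.h.p. over the disorder. (1) Zero field, every fixed `β ≥ 0`: the mixing
time is `O(log n)` exactly when `β < 1`; the spectral gap is bounded below by a positive constant
exactly when `β < 1`; the gap is at most `(1 - β) ^ 2 + ε`; the mixing time is at least `c log n`.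
(2) Zero field, every fixed `0 ≤ β < 1`: gap in `[c, 1]`; mixing time of order `log n`; with a
constant `C` independent of `n`, approximate tensorization of entropy, the modified logarithmic
Sobolev inequality for all `f > 0` and the logarithmic Sobolev inequality with the unweighted
spin-flip form for all `f`; total variation at most `C √n exp (- c t)` at all times from every start
and at least `exp (- t) / 2` from some start. (3) Every fixed `β < 1 / 2`, simultaneously for all
external fields: gap at least `1 - 2 β - ε`, the same three entropy inequalities, mixing time at most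
`C log n`, total variation at most `C n exp (- t / C)`. (4) The critical point `β = 1`, zero field,
every `κ < 1 / 2`: gap at most `n ^ (-κ)`, mixing time at least `(log 2) n ^ κ`, total variation from
some start at least `exp (- n ^ (-κ) t) / 2`. (5) `β > 1`, zero field, every sequence `a n → ∞`: gap
at most `a n / n`, mixing time at least `(log 2) n / a n`, total variation from some start at least
`exp (- a n t / n) / 2`. -/
theorem result :
    (∀ β : ℝ, 0 ≤ β →
      ((∃ C : ℝ, WHP (fun n => {g | tmix (skJ β g) (fun _ => 0) ≤ C * Real.log n})) ↔ β < 1) ∧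
      ((∃ c : ℝ, 0 < c ∧ WHP (fun n => {g | c ≤ gap (skJ β g) (fun _ => 0)})) ↔ β < 1) ∧
      (∀ ε : ℝ, 0 < ε →
        WHP (fun n => {g | gap (skJ β g) (fun _ => 0) ≤ (1 - β) ^ 2 + ε})) ∧
      ∃ c : ℝ, 0 < c ∧ WHP (fun n => {g |
        c * Real.log n ≤ tmix (skJ β g) (fun _ => 0)})) ∧
    (∀ β : ℝ, 0 ≤ β → β < 1 → ∃ c C : ℝ, 0 < c ∧ 0 < C ∧ WHP (fun n => {g |
      c ≤ gap (skJ β g) (fun _ => 0) ∧ gap (skJ β g) (fun _ => 0) ≤ 1 ∧
      c * Real.log n ≤ tmix (skJ β g) (fun _ => 0) ∧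
      tmix (skJ β g) (fun _ => 0) ≤ C * Real.log n ∧
      (∀ t, C * Real.log n ≤ t → ∀ x, tvDist (skJ β g) (fun _ => 0) t x ≤ 1 / 4) ∧
      (∀ f : Cfg n → ℝ, (∀ x, 0 ≤ f x) →
        ex (skJ β g) (fun _ => 0) (fun x => f x * Real.log (f x))
          - ex (skJ β g) (fun _ => 0) f * Real.log (ex (skJ β g) (fun _ => 0) f)
          ≤ C * ∑ i, (ex (skJ β g) (fun _ => 0) (fun x => f x * Real.log (f x))
            - ex (skJ β g) (fun _ => 0) (fun x => resample (skJ β g) (fun _ => 0) i f x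
              * Real.log (resample (skJ β g) (fun _ => 0) i f x)))) ∧
      (∀ f : Cfg n → ℝ, (∀ x, 0 < f x) →
        ex (skJ β g) (fun _ => 0) (fun x => f x * Real.log (f x))
          - ex (skJ β g) (fun _ => 0) f * Real.log (ex (skJ β g) (fun _ => 0) f)
          ≤ C * dir (skJ β g) (fun _ => 0) f (fun x => Real.log (f x))) ∧
      (∀ f : Cfg n → ℝ,
        ex (skJ β g) (fun _ => 0) (fun x => f x ^ 2 * Real.log (f x ^ 2))
          - ex (skJ β g) (fun _ => 0) (fun x => f x ^ 2)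
            * Real.log (ex (skJ β g) (fun _ => 0) (fun x => f x ^ 2))
          ≤ C * ∑ i, ex (skJ β g) (fun _ => 0)
            (fun x => (f (Function.update x i (!x i)) - f x) ^ 2)) ∧
      (∀ t, 0 ≤ t → ∀ x,
        tvDist (skJ β g) (fun _ => 0) t x ≤ C * √n * Real.exp (-(c * t))) ∧
      ∀ t, 0 ≤ t → ∃ x, Real.exp (-t) / 2 ≤ tvDist (skJ β g) (fun _ => 0) t x})) ∧
    (∀ β : ℝ, 0 ≤ β → β < 1 / 2 → ∃ C : ℝ, 0 < C ∧ ∀ ε : ℝ, 0 < ε →
      WHP (fun n => {g | ∀ b : Fin n → ℝ,
      1 - 2 * β - ε ≤ gap (skJ β g) b ∧ gap (skJ β g) b ≤ 1 ∧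
      tmix (skJ β g) b ≤ C * Real.log n ∧
      (∀ t, C * Real.log n ≤ t → ∀ x, tvDist (skJ β g) b t x ≤ 1 / 4) ∧
      (∀ f : Cfg n → ℝ, (∀ x, 0 ≤ f x) →
        ex (skJ β g) b (fun x => f x * Real.log (f x))
          - ex (skJ β g) b f * Real.log (ex (skJ β g) b f)
          ≤ C * ∑ i, (ex (skJ β g) b (fun x => f x * Real.log (f x))
            - ex (skJ β g) b (fun x => resample (skJ β g) b i f x
              * Real.log (resample (skJ β g) b i f x)))) ∧
      (∀ f : Cfg n → ℝ, (∀ x, 0 < f x) →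
        ex (skJ β g) b (fun x => f x * Real.log (f x))
          - ex (skJ β g) b f * Real.log (ex (skJ β g) b f)
          ≤ C * dir (skJ β g) b f (fun x => Real.log (f x))) ∧
      (∀ f : Cfg n → ℝ,
        ex (skJ β g) b (fun x => f x ^ 2 * Real.log (f x ^ 2))
          - ex (skJ β g) b (fun x => f x ^ 2) * Real.log (ex (skJ β g) b (fun x => f x ^ 2))
          ≤ C * ∑ i, ex (skJ β g) b (fun x => (f (Function.update x i (!x i)) - f x) ^ 2)) ∧
      ∀ t, 0 ≤ t → ∀ x, tvDist (skJ β g) b t x ≤ C * n * Real.exp (-(t / C))})) ∧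
    (∀ κ : ℝ, κ < 1 / 2 → WHP (fun n => {g |
      gap (skJ 1 g) (fun _ => 0) ≤ (n : ℝ) ^ (-κ) ∧
      Real.log 2 * (n : ℝ) ^ κ ≤ tmix (skJ 1 g) (fun _ => 0) ∧
      ∀ t, 0 ≤ t → ∃ x, Real.exp (-((n : ℝ) ^ (-κ) * t)) / 2 ≤
        tvDist (skJ 1 g) (fun _ => 0) t x})) ∧
    (∀ β : ℝ, 1 < β → ∀ a : ℕ → ℝ, Tendsto a atTop atTop → WHP (fun n => {g |
      gap (skJ β g) (fun _ => 0) ≤ a n / n ∧
      Real.log 2 * (n / a n) ≤ tmix (skJ β g) (fun _ => 0) ∧
      ∀ t, 0 ≤ t → ∃ x,
        Real.exp (-(a n / n * t)) / 2 ≤ tvDist (skJ β g) (fun _ => 0) t x})) :=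
  ⟨fun β hβ => ⟨H185.Crit.tmix_iff β hβ, H185.Crit.gap_iff β hβ,
      fun ε hε => H185.Crit.gap_upper β ε hε, F.main_full.2.1 β hβ⟩,
    H185.high_zero_at, H185.high_all_at, H185.Crit.crit_pow, H185.low⟩

end Vale.Agent.Results.P150.FullCritical
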