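import Mathlib
import Vale.Agent.P150.Defs
import Vale.Agent.P150.H185.Main

open Filter Topology

namespace Vale.Agent.Results.P150.FullMlsi

open Vale.Agent.P150

/-- SK heat-bath dynamics, w.h.p. over the disorder. (1) Zero field, every fixed `0 ≤ β < 1`: gap in
`[c, 1]`, mixing time of order `log n`, a modified logarithmic Sobolev inequality with a constant
independent of `n` for all positive functions, total variation at most `C √n exp (- c t)` at all
times from every start and at least `exp (- t) / 2` from some start. (2) Every fixed `β < 1 / 2`,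
simultaneously for all external fields: gap at least `1 - 2 β - ε`, the same inequality, mixing time
at most `C log n`, total variation at most `C n exp (- t / C)`. (3) Every `β ≥ 0`, zero field:
mixing time at least `c log n`. (4) `β > 1`, zero field: gap at most `a n / n`, mixing time at least
`(log 2) n / a n`, total variation from some start at least `exp (- a n t / n) / 2`, for every
sequence `a n → ∞`. -/
theorem result :
    (∀ β : ℝ, 0 ≤ β → β < 1 → ∃ c C : ℝ, 0 < c ∧ 0 < C ∧ WHP (fun n => {g |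
      c ≤ gap (skJ β g) (fun _ => 0) ∧ gap (skJ β g) (fun _ => 0) ≤ 1 ∧
      c * Real.log n ≤ tmix (skJ β g) (fun _ => 0) ∧
      tmix (skJ β g) (fun _ => 0) ≤ C * Real.log n ∧
      (∀ t, C * Real.log n ≤ t → ∀ x, tvDist (skJ β g) (fun _ => 0) t x ≤ 1 / 4) ∧
      (∀ f : Cfg n → ℝ, (∀ x, 0 < f x) →
        ex (skJ β g) (fun _ => 0) (fun x => f x * Real.log (f x))
          - ex (skJ β g) (fun _ => 0) f * Real.log (ex (skJ β g) (fun _ => 0) f)
          ≤ C * dir (skJ β g) (fun _ => 0) f (fun x => Real.log (f x))) ∧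
      (∀ t, 0 ≤ t → ∀ x,
        tvDist (skJ β g) (fun _ => 0) t x ≤ C * √n * Real.exp (-(c * t))) ∧
      ∀ t, 0 ≤ t → ∃ x, Real.exp (-t) / 2 ≤ tvDist (skJ β g) (fun _ => 0) t x})) ∧
    (∀ β : ℝ, 0 ≤ β → β < 1 / 2 → ∃ C : ℝ, 0 < C ∧ ∀ ε : ℝ, 0 < ε →
      WHP (fun n => {g | ∀ b : Fin n → ℝ,
      1 - 2 * β - ε ≤ gap (skJ β g) b ∧ gap (skJ β g) b ≤ 1 ∧
      tmix (skJ β g) b ≤ C * Real.log n ∧
      (∀ t, C * Real.log n ≤ t → ∀ x, tvDist (skJ β g) b t x ≤ 1 / 4) ∧
      (∀ f : Cfg n → ℝ, (∀ x, 0 < f x) →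
        ex (skJ β g) b (fun x => f x * Real.log (f x))
          - ex (skJ β g) b f * Real.log (ex (skJ β g) b f)
          ≤ C * dir (skJ β g) b f (fun x => Real.log (f x))) ∧
      ∀ t, 0 ≤ t → ∀ x, tvDist (skJ β g) b t x ≤ C * n * Real.exp (-(t / C))})) ∧
    (∀ β : ℝ, 0 ≤ β → ∃ c : ℝ, 0 < c ∧ WHP (fun n => {g |
      c * Real.log n ≤ tmix (skJ β g) (fun _ => 0)})) ∧
    (∀ β : ℝ, 1 < β → ∀ a : ℕ → ℝ, Tendsto a atTop atTop → WHP (fun n => {g |
      gap (skJ β g) (fun _ => 0) ≤ a n / n ∧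
      Real.log 2 * (n / a n) ≤ tmix (skJ β g) (fun _ => 0) ∧
      ∀ t, 0 ≤ t → ∃ x,
        Real.exp (-(a n / n * t)) / 2 ≤ tvDist (skJ β g) (fun _ => 0) t x})) :=
  ⟨H185.high_zero, H185.high_all, F.main_full.2.1, H185.low⟩

end Vale.Agent.Results.P150.FullMlsi
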