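import Mathlib
import Vale.Agent.P150.Defs
import Vale.Agent.P150.H185.MainAT

open Filter Topology

namespace Vale.Agent.Results.P150.FullTensor

open Vale.Agent.P150

/-- SK heat-bath dynamics, w.h.p. over the disorder. (1) Zero field, every fixed `0 ≤ β < 1`: gap in
`[c, 1]`; mixing time of order `log n`; with a constant `C` independent of `n`, approximate
tensorization of entropy (the entropy of `f ≥ 0` is at most `C` times the sum of the mean one-site
conditional entropies `μ[f log f] - μ[Q_i f log Q_i f]`), the modified logarithmic Sobolev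
inequality for all `f > 0` and the logarithmic Sobolev inequality with the unweighted spin-flip form
for all `f`; total variation at most `C √n exp (- c t)` at all times from every start and at least
`exp (- t) / 2` from some start. (2) Every fixed `β < 1 / 2`, simultaneously for all external
fields: gap at least `1 - 2 β - ε`, the same three entropy inequalities, mixing time at most
`C log n`, total variation at most `C n exp (- t / C)`. (3) Every `β ≥ 0`, zero field: mixing time
at least `c log n`. (4) `β > 1`, zero field: gap at most `a n / n`, mixing time at least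
`(log 2) n / a n`, total variation from some start at least `exp (- a n t / n) / 2`, for every
sequence `a n → ∞`. -/
theorem result :
    (∀ β : ℝ, 0 ≤ β → β < 1 → ∃ c C : ℝ, 0 < c ∧ 0 < C ∧ WHP (fun n => {g |
      c ≤ gap (skJ β g) (fun _ => 0) ∧ gap (skJ β g) (fun _ => 0) ≤ 1 ∧
      c * Real.log n ≤ tmix (skJ β g) (fun _ => 0) ∧
      tmix (skJ β g) (fun _ => 0) ≤ C * Real.log n ∧
      (∀ t, C * Real.log n ≤ t → ∀ x, tvDist (skJ β g) (fun _ => 0) t x ≤ 1 / 4) ∧
      (∀ f : Cfg n → ℝ, (∀ x, 0 ≤ f x) →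
        ex (skJ β g) (fun _ => 0) (fun x => f x * Real.log (f x))
          - ex (skJ β g) (fun _ => 0) f * Real.log (ex (skJ β g) (fun _ => 0) f)
          ≤ C * ∑ i, (ex (skJ β g) (fun _ => 0) (fun x => f x * Real.log (f x))
            - ex (skJ β g) (fun _ => 0) (fun x => resample (skJ β g) (fun _ => 0) i f x
              * Real.log (resample (skJ β g) (fun _ => 0) i f x)))) ∧
      (∀ f : Cfg n → ℝ, (∀ x, 0 < f x) →
        ex (skJ β g) (fun _ => 0) (fun x => f x * Real.log (f x))
          - ex (skJ β g) (fun _ => 0) f * Real.log (ex (skJ β g) (fun _ => 0) f)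
          ≤ C * dir (skJ β g) (fun _ => 0) f (fun x => Real.log (f x))) ∧
      (∀ f : Cfg n → ℝ,
        ex (skJ β g) (fun _ => 0) (fun x => f x ^ 2 * Real.log (f x ^ 2))
          - ex (skJ β g) (fun _ => 0) (fun x => f x ^ 2)
            * Real.log (ex (skJ β g) (fun _ => 0) (fun x => f x ^ 2))
          ≤ C * ∑ i, ex (skJ β g) (fun _ => 0)
            (fun x => (f (Function.update x i (!x i)) - f x) ^ 2)) ∧
      (∀ t, 0 ≤ t → ∀ x,
        tvDist (skJ β g) (fun _ => 0) t x ≤ C * √n * Real.exp (-(c * t))) ∧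
      ∀ t, 0 ≤ t → ∃ x, Real.exp (-t) / 2 ≤ tvDist (skJ β g) (fun _ => 0) t x})) ∧
    (∀ β : ℝ, 0 ≤ β → β < 1 / 2 → ∃ C : ℝ, 0 < C ∧ ∀ ε : ℝ, 0 < ε →
      WHP (fun n => {g | ∀ b : Fin n → ℝ,
      1 - 2 * β - ε ≤ gap (skJ β g) b ∧ gap (skJ β g) b ≤ 1 ∧
      tmix (skJ β g) b ≤ C * Real.log n ∧
      (∀ t, C * Real.log n ≤ t → ∀ x, tvDist (skJ β g) b t x ≤ 1 / 4) ∧
      (∀ f : Cfg n → ℝ, (∀ x, 0 ≤ f x) →
        ex (skJ β g) b (fun x => f x * Real.log (f x))
          - ex (skJ β g) b f * Real.log (ex (skJ β g) b f)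
          ≤ C * ∑ i, (ex (skJ β g) b (fun x => f x * Real.log (f x))
            - ex (skJ β g) b (fun x => resample (skJ β g) b i f x
              * Real.log (resample (skJ β g) b i f x)))) ∧
      (∀ f : Cfg n → ℝ, (∀ x, 0 < f x) →
        ex (skJ β g) b (fun x => f x * Real.log (f x))
          - ex (skJ β g) b f * Real.log (ex (skJ β g) b f)
          ≤ C * dir (skJ β g) b f (fun x => Real.log (f x))) ∧
      (∀ f : Cfg n → ℝ,
        ex (skJ β g) b (fun x => f x ^ 2 * Real.log (f x ^ 2))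
          - ex (skJ β g) b (fun x => f x ^ 2) * Real.log (ex (skJ β g) b (fun x => f x ^ 2))
          ≤ C * ∑ i, ex (skJ β g) b (fun x => (f (Function.update x i (!x i)) - f x) ^ 2)) ∧
      ∀ t, 0 ≤ t → ∀ x, tvDist (skJ β g) b t x ≤ C * n * Real.exp (-(t / C))})) ∧
    (∀ β : ℝ, 0 ≤ β → ∃ c : ℝ, 0 < c ∧ WHP (fun n => {g |
      c * Real.log n ≤ tmix (skJ β g) (fun _ => 0)})) ∧
    (∀ β : ℝ, 1 < β → ∀ a : ℕ → ℝ, Tendsto a atTop atTop → WHP (fun n => {g |
      gap (skJ β g) (fun _ => 0) ≤ a n / n ∧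
      Real.log 2 * (n / a n) ≤ tmix (skJ β g) (fun _ => 0) ∧
      ∀ t, 0 ≤ t → ∃ x,
        Real.exp (-(a n / n * t)) / 2 ≤ tvDist (skJ β g) (fun _ => 0) t x})) :=
  ⟨H185.high_zero_at, H185.high_all_at, F.main_full.2.1, H185.low⟩

end Vale.Agent.Results.P150.FullTensor
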